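import Vale.Agent.P352X.R.GRP
import Vale.Agent.P352Z.R.Br

/-!
# P352Z, row GRP: the action on the fields
-/

set_option linter.all false

noncomputable section

open MeasureTheory Filter Topology Set
open scoped SchwartzMap ComplexConjugate LineDeriv

namespace Vale.Agent.P352X.ZZ.Grp

open Vale.Agent.P352 Vale.Agent.P352.GF Vale.Agent.P352.BW
open Vale.Agent.P352.H246 Vale.Agent.P352.H496 Vale.Agent.P352.H755 Vale.Agent.P352.H15
open UniformSpace (Completion)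
open Vale.Agent.P352X.Br
export Vale.Agent.P352X.Grp (Im Im.ext Im.mul Pm Rc_zero S_uni S_ut affa afs_add afs_comp afs_one afs_smul afs_sum
  afs_zero al_add al_smul al_sub al_tv al_va al_vb alg alg1 be_add be_smul be_sub be_tv be_va
  be_vb bo_eq coe cont cont_one diff_sim e00 e01 ev_sum fC fC_apply fld_smul fld_sum ga ga0
  ga_S ga_ut gb gb0 gb_ut geo im_ga im_gb im_one im_sc im_ug im_ut inv_zero lga lgb lor_bo lsc
  md md_va md_vb na nab nb pa_S pd_ev sc sc1 sc_S sc_ga sc_gb sc_ut simS simS_apply sim_eq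
  sim_inj sim_mul sim_zero sq_div sq_mul sum4 test_dv test_pd test_sim test_sum toC tsl_sim
  tx_add tx_smul tx_sub tx_tv tx_va tx_vb ug_inner ug_mul ug_one ug_star ug_surj uni uni_of ut
  ut0 va_tv vac vb_tv vext)

variable {D : Type*} [NormedAddCommGroup D] [InnerProductSpace ℂ D] {Q : Theory D}
  {A : (V → V) → D → D} {T : Ix → Ix → Fld D} {B : Fld D}

lemma T_fld (hT : P2 Q T) (m n : Ix) : Q.fld (T m n) := Q.bose_fld _ (hT.bose m n)

lemma T_hk (hT : P2 Q T) (h k : V) {f : Fn} (hf : GF.IsTest f) (v : D) :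
    ∑ m, ∑ n, T m n (hk h k f m n) v =
      ∑ m, ∑ n, ((eta m * h m * (eta n * k n) : ℝ) : ℂ) • T m n f v :=
  Finset.sum_congr rfl fun m _ => Finset.sum_congr rfl fun n _ => fld_smul (T_fld hT m n) _ hf v

lemma T_ad (hT : P2 Q T) (h : V) {f : Fn} (hf : GF.IsTest f) (v : D) :
    ∑ m, ∑ n, T m n (ad h f m n) v =
      ∑ m, ∑ n, ((eta m * h m : ℝ) : ℂ) • T m n (pd n f) v :=
  Finset.sum_congr rfl fun m _ => Finset.sum_congr rfl fun n _ =>
    fld_smul (T_fld hT m n) _ (test_pd n hf) v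

lemma perp (hT : P2 Q T) (m n : Ix) {f : Fn} (hf : GF.IsTest f) :
    inner ℂ Q.vac (T m n f Q.vac) = 0 := hT.perp m n f hf

/-- covariance of `T(h, k)` from the covariance of the components -/
lemma ten' (hT : P2 Q T) {T' : Ix → Ix → Fld D} (hT' : P2 Q T') {s : ℝ} {L : Ix → V} (a h k : V)
    {f : Fn} (v : D) (hs : 0 < s) (hL : IsLor L) (hf : GF.IsTest f)
    (cov : ∀ m n, T m n f (Q.U s L a v) =
      ∑ k, ∑ l, (L k m * L l n : ℂ) • Q.U s L a (T' k l (fun x => f (sim s L a x)) v)) :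
    Q.U s L a (∑ m, ∑ n, T' m n (hk h k (fun x => f (sim s L a x)) m n) v) =
      ∑ m, ∑ n, T m n (hk (sim 1 L 0 h) (sim 1 L 0 k) f m n) (Q.U s L a v) := by
  rw [T_hk hT _ _ hf, T_hk hT' _ _ (test_sim hs hL a hf), ← ueI_apply hs hL]
  simp only [cov, map_sum, map_smul, ueI_apply, Finset.smul_sum, smul_smul]
  rw [sum4]
  refine Finset.sum_congr rfl fun m _ => Finset.sum_congr rfl fun n _ => ?_
  simp only [← Finset.sum_smul]
  congr 1
  rw [← md_L hL m h, ← md_L hL n k, GF.mdot, GF.mdot, Finset.sum_mul_sum]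
  push_cast
  exact Finset.sum_congr rfl fun i _ => Finset.sum_congr rfl fun j _ => by ring

lemma ten1 (hT : P2 Q T) {L : Ix → V} (a h k : V) {f : Fn} (v : D)
    (hL : IsLor L) (hf : GF.IsTest f) :
    Q.U 1 L a (∑ m, ∑ n, T m n (hk h k (fun x => f (sim 1 L a x)) m n) v) =
      ∑ m, ∑ n, T m n (hk (sim 1 L 0 h) (sim 1 L 0 k) f m n) (Q.U 1 L a v) :=
  ten' hT hT a h k v one_pos hL hf fun m n => hT.cov m n L a f v hL hf

lemma ten (hT : P2 Q T) (hC : CT Q T) {s : ℝ} {L : Ix → V} (a h k : V) {f : Fn} (v : D) (hs : 0 < s)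
    (hL : IsLor L) (hf : GF.IsTest f) :
    Q.U s L a (∑ m, ∑ n, T m n (hk h k (fun x => f (sim s L a x)) m n) v) =
      ∑ m, ∑ n, T m n (hk (sim 1 L 0 h) (sim 1 L 0 k) f m n) (Q.U s L a v) :=
  ten' hT hT a h k v hs hL hf fun m n => hC.cov m n s L a f v hs hL hf

lemma pd_sim {s : ℝ} {L : Ix → V} (a : V) {f : Fn} (hs : 0 < s) (hL : IsLor L) (hf : GF.IsTest f)
    (l : Ix) : pd l (fun x => f (sim s L a x)) =
      fun x => ∑ n, ((s * L l n : ℝ) : ℂ) * pd n f (sim s L a x) := by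
  obtain ⟨g, rfl⟩ := hf
  funext x
  have d : HasDerivAt (fun t : ℝ => sim s L a (fun n => x n + bas l t n))
      (∑ n, (s * L l n) • (bas n 1 : V)) 0 := by
    refine hasDerivAt_pi.2 fun n => ?_
    have e : (fun t : ℝ => sim s L a (fun n => x n + bas l t n) n) =
        fun t => sim s L a x n + t * (s * L l n) := by
      funext t
      simp [sim, bas, add_mul, Finset.sum_add_distrib]
      ring
    rw [e]
    simpa [bas] using ((hasDerivAt_id (0 : ℝ)).mul_const (s * L l n)).const_add (sim s L a x n)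
  have e0 : sim s L a (fun n => x n + bas l 0 n) = sim s L a x := by simp [bas]
  have h := (g.differentiableAt (x := sim s L a x)).hasFDerivAt.comp_hasDerivAt_of_eq (0 : ℝ) d
    e0.symm
  rw [pd]
  refine h.deriv.trans ?_
  simp only [pd_ev]
  simp only [map_sum, map_smul, ev, SchwartzMap.lineDerivOp_apply_eq_fderiv, Complex.real_smul]

/-- covariance of `T(h ⊗ ∂ f)` -/
lemma th' (hT : P2 Q T) {T' : Ix → Ix → Fld D} (hT' : P2 Q T') {s : ℝ} {L : Ix → V} (a h : V)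
    {f : Fn} (v : D) (hs : 0 < s) (hL : IsLor L) (hf : GF.IsTest f)
    (cov : ∀ m n g, GF.IsTest g → T m n g (Q.U s L a v) =
      ∑ k, ∑ l, (L k m * L l n : ℂ) • Q.U s L a (T' k l (fun x => g (sim s L a x)) v)) :
    Q.U s L a (∑ m, ∑ n, T' m n (ad h (fun x => f (sim s L a x)) m n) v) =
      (s : ℂ) • ∑ m, ∑ n, T m n (ad (sim 1 L 0 h) f m n) (Q.U s L a v) := by
  rw [T_ad hT _ hf, T_ad hT' _ (test_sim hs hL a hf), ← ueI_apply hs hL]
  simp only [fun m n => cov m n _ (test_pd n hf), pd_sim a hs hL hf, map_sum, map_smul,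
    ueI_apply, Finset.smul_sum, smul_smul]
  rw [sum4]
  refine Finset.sum_congr rfl fun m _ => Finset.sum_congr rfl fun n _ => ?_
  rw [fld_sum (T_fld hT' m n) _ _ (fun n => test_sim hs hL a (test_pd n hf)) v, Finset.sum_comm,
    ← ueI_apply hs hL, map_sum, Finset.smul_sum]
  refine Finset.sum_congr rfl fun j _ => ?_
  rw [map_smul, ueI_apply, smul_smul, ← Finset.sum_smul]
  congr 1
  rw [← md_L hL m h, GF.mdot]
  push_cast
  rw [Finset.sum_mul]
  exact Finset.sum_congr rfl fun i _ => by ring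

lemma th1 (hT : P2 Q T) {L : Ix → V} (a h : V) {f : Fn} (v : D) (hL : IsLor L) (hf : GF.IsTest f) :
    Q.U 1 L a (∑ m, ∑ n, T m n (ad h (fun x => f (sim 1 L a x)) m n) v) =
      ∑ m, ∑ n, T m n (ad (sim 1 L 0 h) f m n) (Q.U 1 L a v) := by
  simpa using th' hT hT a h v one_pos hL hf fun m n g hg => hT.cov m n L a g v hL hg

lemma th (hT : P2 Q T) (hC : CT Q T) {s : ℝ} {L : Ix → V} (a h : V) {f : Fn} (v : D) (hs : 0 < s)
    (hL : IsLor L) (hf : GF.IsTest f) :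
    Q.U s L a (∑ m, ∑ n, T m n (ad h (fun x => f (sim s L a x)) m n) v) =
      (s : ℂ) • ∑ m, ∑ n, T m n (ad (sim 1 L 0 h) f m n) (Q.U s L a v) :=
  th' hT hT a h v hs hL hf fun m n g hg => hC.cov m n s L a g v hs hL hg

lemma cons (hT : P2 Q T) (hc : ∀ n f v, GF.IsTest f → ∑ m, T m n (pd m f) v = 0) (h : V) {f : Fn}
    (v : D) (hf : GF.IsTest f) :
    ∑ m, ∑ n, T m n (hk va h (dv vb f) m n) v + ∑ m, ∑ n, T m n (hk vb h (dv va f) m n) v -
      ∑ i, ∑ m, ∑ n, T m n (hk (ex i) h (dv (ex i) f) m n) v = 0 := by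
  have e : ∀ y m n, T m n (dv y f) v = ∑ k, (y k : ℂ) • T m n (pd k f) v := fun y m n =>
    fld_sum (T_fld hT m n) _ _ (fun k => test_pd k hf) v
  have h0 := fun n => hc n f v hf
  simp only [T_hk hT _ _ (test_dv _ hf), e]
  have h1 := h0 0
  have h2 := h0 1
  have h3 := h0 2
  have h4 := h0 3
  simp [Fin.sum_univ_four, va, vb, ex, tv, pt, e2, eta, o] at h1 h2 h3 h4 ⊢
  linear_combination (norm := module) (h 0 : ℂ) • h1 - (h 1 : ℂ) • h2 - (h 2 : ℂ) • h3 -
    (h 3 : ℂ) • h4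

lemma trace (hT : P2 Q T) (h : V) {f : Fn} (v : D) (hf : GF.IsTest f) :
    ∑ m, ∑ n, T m n (ad h f m n) v = ∑ m, ∑ n, T m n (hk h va (dv vb f) m n) v +
      ∑ m, ∑ n, T m n (hk h vb (dv va f) m n) v -
      ∑ i, ∑ m, ∑ n, T m n (hk h (ex i) (dv (ex i) f) m n) v := by
  have e : ∀ y m n, T m n (dv y f) v = ∑ k, (y k : ℂ) • T m n (pd k f) v := fun y m n =>
    fld_sum (T_fld hT m n) _ _ (fun k => test_pd k hf) v
  simp only [T_hk hT _ _ (test_dv _ hf), T_ad hT _ hf, e]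
  simp [Fin.sum_univ_four, va, vb, ex, tv, pt, e2, eta, o]
  module

lemma wlin (hT : P2 Q T) (a : ℝ) (h h' : V) {f : Fn} (v : D) (hf : GF.IsTest f) :
    ∑ m, ∑ n, T m n (ad (h + a • h') f m n) v =
      ∑ m, ∑ n, T m n (ad h f m n) v + (a : ℂ) • ∑ m, ∑ n, T m n (ad h' f m n) v := by
  simp only [T_ad hT _ hf, Finset.smul_sum, smul_smul, ← Finset.sum_add_distrib, ← add_smul,
    Pi.add_apply, Pi.smul_apply, smul_eq_mul]
  refine Finset.sum_congr rfl fun m _ => Finset.sum_congr rfl fun n _ => ?_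
  congr 1
  push_cast
  ring

variable {N : Set V → VonNeumannAlgebra (Completion D)}

lemma afs_T (hN : LNm Q A N) (hT : P2 Q T) (m n : Ix) {O : Set V} {f : Fn} (hf : In O f) :
    BW.T.Afs (N O) (T m n f) (T m n (bar f)) :=
  afs_of_aff (fun v w => hT.herm m n f v w hf.1) (hN.fld O _ f (T_fld hT m n) hf)

lemma afft (hN : LNm Q A N) (hT : P2 Q T) {O : Set V} {F : Ix → Ix → Fn}
    (hF : ∀ m n, In O (F m n)) : BW.T.Afs (N O) (fun v => ∑ m, ∑ n, T m n (F m n) v)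
      fun v => ∑ m, ∑ n, T m n (bar (F m n)) v :=
  afs_sum _ fun m => afs_sum _ fun n => afs_T hN hT m n (hF m n)

lemma pd_bar {f : Fn} (hf : GF.IsTest f) (m : Ix) : pd m (bar f) = bar (pd m f) := by
  funext x
  exact deriv.star (f := fun t : ℝ => f fun n => x n + bas m t n)

lemma bar_ad (h : V) {f : Fn} (hf : GF.IsTest f) (m n : Ix) : bar (ad h f m n) = ad h (bar f) m n := by
  funext x
  simp [ad, pd_bar hf, bar]

lemma in_pd {O : Set V} {f : Fn} (hf : In O f) (m : Ix) : In O (pd m f) := by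
  obtain ⟨⟨g, rfl⟩, h1, h2⟩ := hf
  have s : tsupport (pd m (ev g)) ⊆ tsupport (ev g) := by
    rw [pd_ev]
    exact SchwartzMap.tsupport_lineDerivOp_subset _ g
  exact ⟨test_pd m ⟨g, rfl⟩, h1.of_isClosed_subset (isClosed_tsupport _) s, s.trans h2⟩

lemma in_ad (h : V) {O : Set V} {f : Fn} (hf : In O f) (m n : Ix) : In O (ad h f m n) := by
  obtain ⟨⟨g, e⟩, h1, h2⟩ := in_pd hf n
  exact ⟨⟨((eta m * h m : ℝ) : ℂ) • g, funext fun x => by rw [ad, ← e]; rfl⟩, h1.mul_left,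
    tsupport_mul_subset_right.trans h2⟩

lemma test_ad (h : V) {f : Fn} (hf : GF.IsTest f) (m n : Ix) : GF.IsTest (ad h f m n) := by
  obtain ⟨g, e⟩ := test_pd n hf
  exact ⟨((eta m * h m : ℝ) : ℂ) • g, funext fun x => by rw [ad, ← e]; rfl⟩

lemma affw (hN : LNm Q A N) (hT : P2 Q T) (h : V) {O : Set V} {f : Fn} (hf : In O f) :
    BW.T.Afs (N O) (fun v => ∑ m, ∑ n, T m n (ad h f m n) v)
      fun v => ∑ m, ∑ n, T m n (ad h (bar f) m n) v := by
  simpa only [bar_ad h hf.1] using afft hN hT (in_ad h hf)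

end Vale.Agent.P352X.ZZ.Grp

end
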